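import Vale.Agent.Lib.P368.D3.Final

open Vale.Agent.Lib.P368 in
/-- There are absolute constants `c, C > 0` such that every QAC circuit with at most three
entangling layers, on `n` input qubits and any number `a` of ancillas in the state `|0…0⟩`, has
parity correlation at most `C * exp (-c * √n)` in absolute value, whichever qubit is measured.
No bound on the number of gates or ancillas is assumed. -/
theorem Vale.Agent.Results.P368.DepthThree.result :
    ∃ c C : ℝ, 0 < c ∧ 0 < C ∧ ∀ (n a : ℕ) (circ : Circuit (Fin n ⊕ Fin a)), circ.layers.length ≤ 3 →
      ∀ m : Fin n ⊕ Fin a, |parityCorrelation circ m zeroAncilla| ≤ C * Real.exp (-(c * Real.sqrt n)) :=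
  depth_three_main
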