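import Vale.Agent.Results.P368.DepthTwo
import Vale.Agent.Results.P368.DepthThree

open Vale.Agent.Lib.P368 in
/-- Both depth results for QAC circuits at once: (1) at most two entangling layers, any ancilla
state: parity correlation at most `min 1 (4 / 2 ^ ⌈n / 2⌉)`; (2) at most three entangling layers,
ancillas in `|0…0⟩`: parity correlation at most `C * exp (-c * √n)` with absolute constants. -/
theorem Vale.Agent.Results.P368.A0Conj.result :
    (∀ {n a : ℕ} (c : Circuit (Fin n ⊕ Fin a)), c.layers.length ≤ 2 → ∀ (m : Fin n ⊕ Fin a)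
      (res : (Fin a → Bool) → ℂ), ∑ y, ‖res y‖ ^ 2 = 1 →
        |parityCorrelation c m res| ≤ min 1 (4 / 2 ^ ((n + 1) / 2))) ∧
    (∃ c C : ℝ, 0 < c ∧ 0 < C ∧ ∀ (n a : ℕ) (circ : Circuit (Fin n ⊕ Fin a)),
      circ.layers.length ≤ 3 → ∀ m : Fin n ⊕ Fin a,
        |parityCorrelation circ m zeroAncilla| ≤ C * Real.exp (-(c * Real.sqrt n))) :=
  ⟨@Vale.Agent.Results.P368.DepthTwo.result, Vale.Agent.Results.P368.DepthThree.result⟩
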