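import Vale.Agent.Lib.P368.Main

open Vale.Agent.Lib.P368 in
/-- Every QAC circuit with at most two entangling layers has parity correlation at most
`min 1 (4 / 2 ^ ⌈n / 2⌉)` in absolute value, for any number of ancillas and any ancilla state. -/
theorem Vale.Agent.Results.P368.DepthTwo.result {n a : ℕ} (c : Circuit (Fin n ⊕ Fin a))
    (hc : c.layers.length ≤ 2) (m : Fin n ⊕ Fin a) (res : (Fin a → Bool) → ℂ)
    (hres : ∑ y, ‖res y‖ ^ 2 = 1) :
    |parityCorrelation c m res| ≤ min 1 (4 / 2 ^ ((n + 1) / 2)) :=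
  depth_two_bound c hc m res hres
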